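import Vale.Agent.P277.H335.X.E4c

/-!
# P277, CONTR without regularity
-/

open scoped Manifold ContDiff Topology
open Vale.Agent.P272.K Vale.Agent.P285.H281.FD Vale.Agent.P267.H175 Set Metric Filter
open Vale.Agent.P277.PH

noncomputable section

namespace Vale.Agent.P277.H335.XX

open Vale.Agent.P277 Vale.Agent.P277.T3

section contr

variable {Y : Type} [TopologicalSpace Y] [T2Space Y] [CompactSpace Y] [ChartedSpace (Cm 4) Y]
  [IsManifold 𝓘(ℂ, Cm 4) ω Y] {W : CSp} {X Z : ℕ → CSp} {v₀ : Y → W.pt} {p : W.pt → (X 0).pt}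
  {P : Bd W.pt} {r : ℕ} {G : Fin r → Set Y}
  {f : ∀ j, (X j).pt → (Z j).pt}
  {f' : ∀ j, (X (j + 1)).pt → (Z j).pt} {A : ∀ j, Set (Z j).pt} {L : ∀ j, Bd (X j).pt}
  {L' : ∀ j, Bd (X (j + 1)).pt} {O : ℕ → Set Y} {v : ∀ j, Y → (X j).pt}
  {H : Type} [TopologicalSpace H] [T2Space H] [CompactSpace H] [ConnectedSpace H]
  [ChartedSpace (Cm 3) H] [IsManifold 𝓘(ℂ, Cm 3) ω H] {ι : H → Y} {B : ∀ j, Set (X j).pt}

omit [ConnectedSpace H] in
theorem ex_allS (hE : H615.X.StExS) (hfl : ∀ j, IsFlip (X j) (Z j) (X (j + 1)) (f j) (f' j) (A j) (L j)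
    (L' j)) (hS : IsSeq X Z f f' A O v) (hι : IsSub ι) (hB : IsStr X O v ι B)
    (hlift : ∀ j, Lifts (X j) (O j) (v j)) (j : ℕ) :
    ∃ K : ℕ, ∀ (N : ℕ) (D : Fin N → Set H) (w : Fin N → H → ℝ)
      (_ : ∀ i y, LogAt 3 (D i) (w i) y), ∃ Λ : (Fin N → ℝ) →ₗ[ℝ] (Fin K → ℝ), ∀ c, Λ c = 0 →
        DimLe (X (j + 1)) 1 {x | (f' j x ∈ A j ∧ x ∈ B (j + 1)) ∧
          ¬ BdAt (ι ⁻¹' O (j + 1)) (⋃ i, D i) (fun y => v (j + 1) (ι y))
            (fun y => ∑ i, c i * w i y) x} := by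
  refine hE Y H ι hι (X (j + 1)) (hfl j).normal' (O (j + 1)) (v (j + 1)) (hS.emb _) (hS.dim _) (hlift _)
    (B (j + 1)) (hB.closed _) (hB.eqn _) (hB.mem _) {x | f' j x ∈ A j ∧ x ∈ B (j + 1)} ?_ ?_ ?_
  · intro x _
    obtain ⟨k, g, hg, hge⟩ := (hfl j).small'.an (f' j x) (mem_univ _)
    obtain ⟨σ, hσ, hσe⟩ := hB.eqn (j + 1) x
    refine ⟨k + 1, Fin.cons σ fun i => g i ∘ f' j, fun i => ?_, ?_⟩
    · refine Fin.cases ?_ (fun i => ?_) i
      · exact hσ
      · exact (hfl j).small'.holo x _ (hg i)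
    · filter_upwards [hσe, (hfl j).small'.cont.continuousAt.eventually hge] with y h1 h2
      rw [Fin.forall_fin_succ]
      simp only [Fin.cons_zero, Fin.cons_succ, Function.comp_apply, mem_setOf_eq]
      rw [← h1, ← h2]
      exact and_comm
  · exact (hfl j).small'.dim.mono fun x hx => hx.1
  · rintro x hx ⟨y, hy, rfl⟩
    have h1 := hx.1
    rw [hS.comp j y hy] at h1
    exact (hS.mem_succ.1 hy).2 h1

/-- (CONTR) without regularity -/
theorem stContrS_of (hPH : StPH) (hC : StConst) (hGL : StLift) (hHYP : StHyp) (hCL : StCl)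
    (hE0 : StEx0) (hE : H615.X.StExS) (hL0 : StLifts0) (hL1 : StLifts1) :
    H615.X.StContrS := by
  classical
  intro Y _ _ _ _ _ W X Z r v₀ p P G hR f f' A L L' hfl O v hS hO0 hv0 H _ _ _ _ _ _ ι hι hne B hB
    hfin
  by_contra hcon
  push Not at hcon
  obtain ⟨J, hJ⟩ := hfin
  have : SecondCountableTopology H := ChartedSpace.secondCountable_of_sigmaCompact (Cm 3) H
  have hlift := lifts_all hL0 hL1 hR hfl hS hO0 hv0
  have hthin := hS.thin hfl hR.hyp hR.closed hO0 hι hne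
  -- the linear conditions
  choose K hK using ex_allS hE hfl hS hι hB hlift
  have hGan := isAnAt_union hι hR.hyp hR.closed
  have hGd : Dense (ι ⁻¹' ⋃ l, G l)ᶜ := by
    refine dense_compl_an hGan ?_
    obtain ⟨h, hh⟩ := hne
    refine ⟨h, fun h1 => ?_⟩
    rw [hO0] at hh
    exact hh h1
  obtain ⟨K0, hK0⟩ := hE0 H (ι ⁻¹' ⋃ l, G l) hGan hGd
  obtain ⟨h, hcomb⟩ := exists_comb hPH H
  -- many contracted surfaces
  have hex : ∃ n : ℕ → ℕ, StrictMono n ∧
      ∀ k, ¬ ThinM 3 1 (ι ⁻¹' O (n k) \ ι ⁻¹' O (n k + 1)) := by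
    refine extraction_of_frequently_atTop
      (P := fun k => ¬ ThinM 3 1 (ι ⁻¹' O k \ ι ⁻¹' O (k + 1))) ?_
    rw [frequently_atTop]
    intro a
    obtain ⟨b, hb, hb'⟩ := hcon a
    exact ⟨b, hb, hb'⟩
  obtain ⟨n, hn, hbad⟩ := hex
  set N : ℕ := h + (K0 + ∑ j : Fin J, K j) + 1 with hN
  choose M s V hM hs hV hVO hVO' using fun k : Fin N =>
    exists_contr hGL hHYP hCL hR hfl hS hO0 hv0 hι hne (hbad k)
  choose ψ hψ using fun k => exists_isMet (hM k)
  choose idx hidx using fun k : Fin N => (hM k).cover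
  set w : Fin N → H → ℝ := fun k => lw (M k) (s k) (ψ k) (idx k) with hw
  have hwl : ∀ k y, LogAt 3 (V k) (w k) y := fun k y =>
    lw_logAt (hM k) (hs k) (hψ k) (hidx k) (hV k) y
  obtain ⟨Λ0, hΛ0⟩ := hK0 N V w hwl
  choose Λ hΛ using fun j => hK j N V w hwl
  set Λt : (Fin N → ℝ) →ₗ[ℝ] (Fin K0 → ℝ) × (∀ j : Fin J, Fin (K j) → ℝ) :=
    Λ0.prod (LinearMap.pi fun j : Fin J => Λ j) with hΛt
  have hdim : Module.finrank ℝ ((Fin K0 → ℝ) × (∀ j : Fin J, Fin (K j) → ℝ)) =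
      K0 + ∑ j : Fin J, K j := by
    rw [Module.finrank_prod, Module.finrank_fin_fun, Module.finrank_pi_fintype]
    simp
  obtain ⟨c, φ, hc, hΛc, hφs, hφ⟩ := hcomb N _ Λt (by rw [hdim]; omega) M hM ψ hψ
  have hc0 : Λ0 c = 0 := by
    have := congrArg Prod.fst hΛc
    simpa [hΛt] using this
  have hcj : ∀ j : Fin J, Λ j c = 0 := by
    intro j
    have := congrFun (congrArg Prod.snd hΛc) j
    simpa [hΛt] using this
  set D : Set H := ⋃ k, V k with hD
  set u : H → ℝ := fun y => ∑ k, c k * w k y with hu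
  -- boundedness on all spaces
  have hbd : ∀ j, DimLe (X j) 1 {x | x ∉ v j '' O j ∧
      ¬ BdAt (ι ⁻¹' O j) D (fun h => v j (ι h)) u x} := by
    intro j
    induction j with
    | zero => exact bd_zero hR hO0 hv0 hι (hΛ0 c hc0)
    | succ j ih =>
      refine bd_step hfl hS hB ih ?_
      by_cases hj : j < J
      · exact hΛ j c (hcj ⟨j, hj⟩)
      · exact (hJ j (not_lt.1 hj)).mono fun x hx => hx.1
  -- the final space
  set J' : ℕ := n N with hJ'
  have hsub : ∀ k : Fin N, O J' ⊆ O (n k + 1) := fun k =>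
    hS.anti (by
      have := hn (show (k : ℕ) < N from k.2)
      omega)
  have hDO : ∀ h ∈ D, ι h ∉ O J' := by
    intro h hh hhO
    obtain ⟨k, hk⟩ := mem_iUnion.1 hh
    exact hVO k h hk (hsub k hhO)
  have hφc : Continuous φ := continuous_iff_continuousAt.2 fun y => SmR.continuousAt (hφs y)
  obtain ⟨Cφ, hCφ⟩ : ∃ C, ∀ y, |φ y| ≤ C := by
    obtain ⟨C, hC⟩ := (isCompact_univ (X := H)).exists_bound_of_continuousOn hφc.continuousOn
    exact ⟨C, fun y => hC y (mem_univ y)⟩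
  have hph : ∀ h, ι h ∈ O J' → PHAt 3 (fun y => u y - φ y) h := by
    intro h hh
    refine ph_comb hM hs hψ hidx hφ fun k i hi h0 => ?_
    exact hDO h (mem_iUnion.2 ⟨k, (hV k i h hi).1.1 h0⟩) hh
  have hpre : IsPreconnected (ι ⁻¹' O J') := by
    have h1 := isPreconnected_compl_thin (hthin J')
    rwa [compl_compl] at h1
  have hden : Dense (ι ⁻¹' O J') := by
    have h1 := T3.dense_compl_thin (hthin J')
    rwa [compl_compl] at h1
  obtain ⟨a, ha⟩ := const_of (D := D) hC hι (hS.emb J') (hS.dim J') (hB.closed J') (hB.mem J') hpre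
    hDO hph (by
      refine (hbd J').mono ?_
      rintro x ⟨h1, h2⟩
      refine ⟨h1, fun h3 => h2 (bdAt_congr (C := Cφ) h3 fun y => ?_)⟩
      rw [show u y - φ y - u y = -φ y by ring, abs_neg]
      exact hCφ y)
  choose h₀ hh₀V hh₀O using hVO'
  refine const_false hwl hc hφc hden (fun k => ?_) (a := a) (fun y hy => ha y hy) h₀ hh₀V
    (fun k l hlk hmem => ?_)
  · rw [disjoint_left]
    intro h hh hhO
    exact hDO h (mem_iUnion.2 ⟨k, hh⟩) hhO
  · refine hVO l _ hmem (hS.anti ?_ (hh₀O k))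
    have := hn (show (l : ℕ) < k from hlk)
    omega

end contr

/-- (CONTR) without regularity, from the places -/
theorem stContrS_fin (hE1 : H615.X.StAdmP) (hE3 : H615.X.StPlX) : H615.X.StContrS :=
  stContrS_of PH.stPH H884.PH.stConst H335.GL.stLift H335.HY.stHyp H762.stCl H60.Z.stEx0
    (stExS_of hE1 hE3 H622.stB1 H762.stL1 H762.stL3) H335.LI.stLifts0 H335.LI.stLifts1

end Vale.Agent.P277.H335.XX
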