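import Vale.Agent.P277.H335.X.PlX

/-!
# P277, EX without regularity: good points from places
-/

open scoped Manifold ContDiff Topology
open Vale.Agent.P272.K Vale.Agent.P285.H281.FD Set Filter Metric

set_option linter.unusedSectionVars false

noncomputable section

namespace Vale.Agent.P277.H335.XX

open Vale.Agent.P277 Vale.Agent.P277.H762 Vale.Agent.P277.T3 Vale.Agent.P277.H60.X

theorem isPl_mono {σ : Cm 4 → ℂ} {b b' : Cm 3} {r r' : ℝ} {γ : Cm 3 → Cm 4} (h : IsPl σ b r γ)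
    (hs : ball b' r' ⊆ ball b r) : IsPl σ b' r' γ :=
  ⟨fun w hw => h.an w (hs hw), fun w hw => h.zero w (hs hw), fun w hw => h.c2 w (hs hw),
    fun w hw => h.c3 w (hs hw), fun w hw => h.exc w (hs hw)⟩

variable {X : CSp} {S B B' V : Set X.pt} {G : X.pt → Cm 4} {g : Cm 2 → X.pt} {p₀ : Cm 2} {r : ℝ}
  {d : ℕ} {Γ : Fin d → Cm 3 → X.pt}

theorem PlG.mono (h : PlG X S B B' V G g p₀ r d Γ) {p₁ : Cm 2} {r₁ : ℝ} (hr : 0 < r₁)
    (hb : r₁ + dist p₁ p₀ ≤ r) : PlG X S B B' V G g p₁ r₁ d Γ := by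
  have h1 : ball p₁ r₁ ⊆ ball p₀ r := ball_subset_ball' hb
  have h2 : ball (zx p₁) r₁ ⊆ ball (zx p₀) r := ball_subset_ball' (by rw [dist_zx]; exact hb)
  exact ⟨hr, h.openV, h.holG, fun p hp => h.holg p (h1 hp), fun p hp => h.memg p (h1 hp),
    fun p hp => h.Gg p (h1 hp), fun x hx hxS hp => h.gG x hx hxS (h1 hp),
    fun k w hw => h.hol k w (h2 hw), fun k w hw => h.memV k w (h2 hw),
    fun k w hw => h.memB k w (h2 hw), fun k => isPl_mono (h.pl k) h2,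
    fun k p hp => h.exc k p (h1 hp), fun p hp => h.cover p (h1 hp)⟩

theorem PlG.contG (h : PlG X S B B' V G g p₀ r d Γ) {x : X.pt} (hx : x ∈ V) : ContinuousAt G x :=
  continuousAt_pi.2 fun i => hol_continuousAt (h.holG x hx i)

theorem PlG.lst_cont (h : PlG X S B B' V G g p₀ r d Γ) {x : X.pt} (hx : x ∈ V) :
    ContinuousAt (fun x => lst (G x)) x :=
  ContinuousAt.comp (g := lst) (lst_an _).continuousAt (h.contG hx)

theorem PlG.lst_g (h : PlG X S B B' V G g p₀ r d Γ) {p : Cm 2} (hp : p ∈ ball p₀ r) :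
    lst (G (g p)) = p := by
  rw [h.Gg p hp, lst_zz]

theorem PlG.openU (h : PlG X S B B' V G g p₀ r d Γ) {U : Set (Cm 2)} (hU : U ⊆ ball p₀ r)
    (hUo : IsOpen U) : ∃ V' : Set X.pt, IsOpen V' ∧ V' ⊆ V ∧ V' ∩ S = g '' U := by
  refine ⟨{x | x ∈ V ∧ lst (G x) ∈ U}, ?_, fun x hx => hx.1, ?_⟩
  · rw [isOpen_iff_mem_nhds]
    rintro x ⟨hx, hxU⟩
    exact inter_mem (h.openV.mem_nhds hx) ((h.lst_cont hx).preimage_mem_nhds (hUo.mem_nhds hxU))
  · ext y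
    constructor
    · rintro ⟨⟨hy, hyU⟩, hyS⟩
      exact ⟨lst (G y), hyU, h.gG y hy hyS (hU hyU)⟩
    · rintro ⟨p, hp, rfl⟩
      refine ⟨⟨(h.memg p (hU hp)).2, ?_⟩, (h.memg p (hU hp)).1⟩
      rw [h.lst_g (hU hp)]; exact hp

/-- `G` maps sets of small dimension to sets of small dimension -/
theorem PlG.cvG (h : PlG X S B B' V G g p₀ r d Γ) {m : ℕ} {T : Set X.pt} (hT : DimLe X m T) :
    Cv m (G '' (V ∩ T)) := by
  obtain ⟨Ω, a, h1, h2, h3⟩ := hT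
  refine ⟨fun l => {p | p ∈ Ω l ∧ a l p ∈ V}, fun l p => G (a l p), fun l => ?_,
    fun l p hp => ?_, ?_⟩
  · rw [isOpen_iff_mem_nhds]
    intro p hp
    filter_upwards [(h1 l).mem_nhds hp.1, (h2 l p hp.1).1.eventually (h.openV.mem_nhds hp.2)]
      with q hq hq' using ⟨hq, hq'⟩
  · exact AnalyticAt.pi fun i => (h2 l p hp.1).analyticAt (h.holG _ hp.2 i)
  · rintro _ ⟨x, ⟨hx, hxT⟩, rfl⟩
    obtain ⟨l, p, hp, hpx⟩ := mem_iUnion.1 (h3 hxT)
    refine mem_iUnion.2 ⟨l, p, ⟨hp, by rw [hpx]; exact hx⟩, ?_⟩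
    show G (a l p) = G x
    rw [hpx]

theorem PlG.dim (h : PlG X S B B' V G g p₀ r d Γ) {m : ℕ} {T : Set (Cm 2)} (hT : Cv m T) :
    DimLe X m (g '' (ball p₀ r ∩ T)) := by
  obtain ⟨Ω, a, h1, h2, h3⟩ := hT
  refine ⟨fun l => {p | p ∈ Ω l ∧ a l p ∈ ball p₀ r}, fun l p => g (a l p), fun l => ?_,
    fun l p hp => ?_, ?_⟩
  · rw [isOpen_iff_mem_nhds]
    intro p hp
    filter_upwards [(h1 l).mem_nhds hp.1,
      (h2 l p hp.1).continuousAt.eventually (isOpen_ball.mem_nhds hp.2)] with q hq hq'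
      using ⟨hq, hq'⟩
  · exact HolAt.comp (h.holg _ hp.2) (h2 l p hp.1)
  · rintro _ ⟨z, ⟨hz, hzT⟩, rfl⟩
    obtain ⟨l, p, hp, rfl⟩ := mem_iUnion.1 (h3 hzT)
    exact mem_iUnion.2 ⟨l, p, ⟨hp, hz⟩, rfl⟩

theorem PlG.ndim (h : PlG X S B B' V G g p₀ r d Γ) {U : Set (Cm 2)} (hU : U ⊆ ball p₀ r)
    (hUo : IsOpen U) (hne : U.Nonempty) : ¬ DimLe X 1 (g '' U) := by
  intro hcon
  obtain ⟨p, hp⟩ := hne
  have h1 : Cv 1 (lst '' (G '' (V ∩ g '' U))) :=
    Cv.image (h.cvG hcon) isOpen_univ (subset_univ _) fun w _ => lst_an w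
  refine not_cv_nhds (x := p) (by simp) ?_ h1
  filter_upwards [hUo.mem_nhds hp] with p' hp'
  exact ⟨G (g p'), ⟨g p', ⟨(h.memg p' (hU hp')).2, p', hp', rfl⟩, rfl⟩, h.lst_g (hU hp')⟩

theorem PlG.surf (h : PlG X S B B' V G g p₀ r d Γ) {p : Cm 2} (hp : p ∈ ball p₀ r) :
    IsSurfX X S (g p) := by
  have hpV := (h.memg p hp).2
  refine ⟨ball p₀ r, g, fun y => lst (G y), isOpen_ball, h.holg, ⟨p, hp, rfl⟩, ?_,
    fun q hq => h.lst_g hq, ?_⟩
  · intro i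
    filter_upwards [h.openV.mem_nhds hpV] with y hy
    fin_cases i
    · exact h.holG y hy 2
    · exact h.holG y hy 3
  · have h1 := (h.lst_cont hpV).eventually (isOpen_ball.mem_nhds
      (by show lst (G (g p)) ∈ ball p₀ r; rw [h.lst_g hp]; exact hp))
    filter_upwards [h.openV.mem_nhds hpV, h1] with y hy hy'
    constructor
    · intro hyS
      exact ⟨hy', h.gG y hy hyS hy'⟩
    · rintro ⟨h2, h3⟩
      have := (h.memg _ h2).1
      rwa [h3] at this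

/-- places meet the complement of thin sets -/
theorem PlG.exists_notMem (h : PlG X S B B' V G g p₀ r d Γ) {T : Set X.pt} (hT : DimLe X 2 T)
    (k : Fin d) {N : Set (Cm 3)} (hN : IsOpen N) (hNb : N ⊆ ball (zx p₀) r) (hne : N.Nonempty) :
    ∃ w ∈ N, Γ k w ∉ T := by
  obtain ⟨w, hw, hinj⟩ := (h.pl k).exists_inj (zx_zero _) hN hNb hne
  obtain ⟨q, hq, hq'⟩ := exists_notMem_of_cv (d := 2) (by norm_num) ((h.pl k).an w (hNb hw)) hinj
    (h.cvG hT) (hN.mem_nhds hw)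
  exact ⟨q, hq, fun hcon => hq' ⟨Γ k q, ⟨h.memV k q (hNb hq), hcon⟩, rfl⟩⟩

variable {Y H : Type} [TopologicalSpace Y] [ChartedSpace (Cm 4) Y] [TopologicalSpace H]
  [ChartedSpace (Cm 3) H]
variable {O : Set Y} {v : Y → X.pt} {ι : H → Y}

theorem PlG.dense (h : PlG X S B B' V G g p₀ r d Γ) (hdim : DimLe X 2 (v '' O)ᶜ) (k : Fin d)
    {N : Set (Cm 3)} (hNb : N ⊆ ball (zx p₀) r) (hN : IsOpen N) (hne : N.Nonempty) :
    ∃ w ∈ N, Γ k w ∈ v '' O := by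
  obtain ⟨w, hw, hw'⟩ := h.exists_notMem hdim k hN hNb hne
  exact ⟨w, hw, by simpa using hw'⟩

/-- `G ∘ v ∘ ι` in charts -/
theorem PlG.vi_an (h : PlG X S B B' V G g p₀ r d Γ) (hι : IsSub ι) (hv : IsOpenEmb X O v) {x : H}
    {e : Chart 3 H} (he : At e x) (hxO : ι x ∈ O) (hxV : v (ι x) ∈ V) :
    AnalyticAt ℂ (fun z => G (v (ι (e.symm z)))) (e x) := by
  refine AnalyticAt.pi fun i => ?_
  set e' := chartAt (Cm 4) (ι x) with he'
  have hAt : At e' (ι x) := ⟨chart_mem_atlas _ _, mem_chart_source _ _⟩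
  have h1 := (hv.hol (ι x) hxO e' hAt fun y => G y i).1 (h.holG _ hxV i)
  have h2 := (hι.holo x e e' he hAt).1
  have h3 : AnalyticAt ℂ (fun z => G (v (e'.symm (e' (ι (e.symm z))))) i) (e x) := by
    refine AnalyticAt.fun_comp (g := fun z => G (v (e'.symm z)) i) ?_ h2
    rw [e.left_inv he.2]
    exact h1
  refine h3.congr ?_
  have h4 : ContinuousAt (fun z => ι (e.symm z)) (e x) :=
    ContinuousAt.comp (g := ι) hι.cont.continuousAt (e.continuousAt_symm (e.map_source he.2))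
  have h5 : ∀ᶠ z in 𝓝 (e x), ι (e.symm z) ∈ e'.source := by
    refine h4.eventually (e'.open_source.mem_nhds ?_)
    show ι (e.symm (e x)) ∈ e'.source
    rw [e.left_inv he.2]
    exact hAt.2
  filter_upwards [h5] with z hz
  rw [e'.left_inv hz]

/-- lifts of places are generically open maps -/
theorem PlG.gen (h : PlG X S B B' V G g p₀ r d Γ) (hι : IsSub ι) (hv : IsOpenEmb X O v)
    (hdim : DimLe X 2 (v '' O)ᶜ) (k : Fin d) {q : Cm 3 → H} {N : Set (Cm 3)} (hN : IsOpen N)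
    (hNb : N ⊆ ball (zx p₀) r) (hl : ∀ w ∈ N, LiftD O v ι (Γ k) q w) (hne : N.Nonempty) :
    (interior (q '' N)).Nonempty := by
  have hvO : IsOpen (v '' O) := hv.isOpenMap O Subset.rfl hv.isOpen
  set N' : Set (Cm 3) := {w | w ∈ N ∧ Γ k w ∈ v '' O} with hN'
  have hN'o : IsOpen N' := by
    rw [isOpen_iff_mem_nhds]
    rintro w ⟨hw, hw'⟩
    exact inter_mem (hN.mem_nhds hw) ((h.hol k w (hNb hw)).1.preimage_mem_nhds
      (hvO.mem_nhds hw'))
  have hN'ne : N'.Nonempty := by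
    obtain ⟨w, hw, hw'⟩ := h.dense hdim k hNb hN hne
    exact ⟨w, hw, hw'⟩
  obtain ⟨w, hw, hinj⟩ := (h.pl k).exists_inj (zx_zero _) hN'o (fun z hz => hNb hz.1) hN'ne
  have hlw := hl w hw.1
  obtain ⟨hqO, hqv⟩ := hlw.eq hw.2
  set e := chartAt (Cm 3) (q w) with he'
  have he : At e (q w) := ⟨chart_mem_atlas _ _, mem_chart_source _ _⟩
  have hF : AnalyticAt ℂ (fun w => e (q w)) w := hlw.an e he
  have hP := h.vi_an hι hv he hqO (by rw [hqv]; exact h.memV k w (hNb hw.1))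
  have hsrc : ∀ᶠ w' in 𝓝 w, q w' ∈ e.source := hlw.cont.eventually (e.open_source.mem_nhds he.2)
  have hPF : (fun w' => G (v (ι (e.symm (e (q w')))))) =ᶠ[𝓝 w] fun w => G (Γ k w) := by
    filter_upwards [hN'o.mem_nhds hw, hsrc] with w' h1 h2
    rw [e.left_inv h2, ((hl w' h1.1).eq h1.2).2]
  have hFinj : Function.Injective (fderiv ℂ (fun w => e (q w)) w) := by
    have h1 := hPF.fderiv_eq (𝕜 := ℂ)
    have h2 : fderiv ℂ (fun w' => G (v (ι (e.symm (e (q w')))))) w =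
        (fderiv ℂ (fun z => G (v (ι (e.symm z)))) (e (q w))).comp
          (fderiv ℂ (fun w => e (q w)) w) :=
      fderiv_comp (g := fun z => G (v (ι (e.symm z)))) w hP.differentiableAt
        hF.differentiableAt
    intro a a' haa
    apply hinj
    rw [← h1, h2]
    show (fderiv ℂ (fun z => G (v (ι (e.symm z)))) (e (q w)))
      (fderiv ℂ (fun w => e (q w)) w a) = (fderiv ℂ (fun z => G (v (ι (e.symm z))))
        (e (q w))) (fderiv ℂ (fun w => e (q w)) w a')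
    rw [haa]
  obtain ⟨E, hE, hwE, -, -⟩ := H73.exists_localInv hF hFinj
  obtain ⟨U, hU, hUo, hwU⟩ := _root_.eventually_nhds_iff.1 ((hN.eventually_mem hw.1).and hsrc)
  have h3 : IsOpen (E '' (E.source ∩ U)) :=
    E.isOpen_image_of_subset_source (E.open_source.inter hUo) inter_subset_left
  have h4 : E '' (E.source ∩ U) ⊆ e.target := by
    rintro _ ⟨w', hw', rfl⟩
    rw [hE]
    exact e.map_source (hU w' hw'.2).2
  have h5 : IsOpen (e.symm '' (E '' (E.source ∩ U))) :=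
    e.symm.isOpen_image_of_subset_source h3 h4
  refine ⟨q w, interior_maximal ?_ h5 ⟨_, ⟨w, ⟨hwE, hwU⟩, rfl⟩, ?_⟩⟩
  · rintro _ ⟨_, ⟨w', hw', rfl⟩, rfl⟩
    refine ⟨w', (hU w' hw'.2).1, ?_⟩
    rw [hE]
    exact (e.left_inv (hU w' hw'.2).2).symm
  · rw [hE]
    exact e.left_inv he.2

/-- the places lift outside thin sets -/
theorem PlG.lift [T2Space Y] [CompactSpace H] [Nonempty H] [IsManifold 𝓘(ℂ, Cm 4) ω Y]
    [IsManifold 𝓘(ℂ, Cm 3) ω H] (h : PlG X S B B' V G g p₀ r d Γ) (hB1 : StB1) (hι : IsSub ι)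
    (hdim : DimLe X 2 (v '' O)ᶜ) (hLi : Lifts X O v)
    (hBH : ∀ y ∈ O, v y ∈ B ↔ y ∈ range ι) (k : Fin d) :
    Cv 1 {w : Cm 3 | w ∈ ball (zx p₀) r ∧ w 0 = 0 ∧ ¬ ∃ ρ > 0, ∃ q : Cm 3 → H, ∀ w' ∈ ball w ρ,
      LiftD O v ι (Γ k) q w'} := by
  have hpc : Continuous H60.X.pr := continuous_of_an pr_an
  have hWo : IsOpen (H60.X.pr ⁻¹' ball (zx p₀) r) := isOpen_ball.preimage hpc
  obtain ⟨Ω, G', h1, h2, h3⟩ := hLi (H60.X.pr ⁻¹' ball (zx p₀) r) hWo (fun z => Γ k (H60.X.pr z))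
    (fun w hw => HolAt.comp (g := Γ k) (γ := fun z => H60.X.pr z) (h.hol k _ hw) (pr_an w))
    (by
      intro w hw
      rw [mem_closure_iff_nhds]
      intro U hU
      obtain ⟨U', hU', hU'o, hwU'⟩ := _root_.mem_nhds_iff.1 hU
      have hexw : ex (w 3) (H60.X.pr w) = w := by
        ext i; fin_cases i <;> rfl
      have h4 : IsOpen (ex (w 3) ⁻¹' (U' ∩ H60.X.pr ⁻¹' ball (zx p₀) r)) :=
        (hU'o.inter hWo).preimage (continuous_of_an (ex_an _))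
      obtain ⟨u, hu, hu'⟩ := h.dense hdim k (N := ex (w 3) ⁻¹' (U' ∩ H60.X.pr ⁻¹' ball (zx p₀) r))
        (fun u hu => by
          have := hu.2
          rw [mem_preimage, pr_ex] at this
          exact this) h4 ⟨H60.X.pr w, by
            rw [mem_preimage, hexw]; exact ⟨hwU', hw⟩⟩
      refine ⟨ex (w 3) u, hU' hu.1, hu.2, ?_⟩
      show Γ k (H60.X.pr (ex (w 3) u)) ∈ v '' O
      rw [pr_ex]; exact hu')
  obtain ⟨c, hc⟩ := exists_slice hB1 (T := {w | w ∈ H60.X.pr ⁻¹' ball (zx p₀) r ∧ w 0 = 0 ∧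
    ¬ LiftAt O v (fun z => Γ k (H60.X.pr z)) w}) ⟨Ω, G', h1, h2, h3⟩
  refine hc.mono ?_
  rintro w ⟨hw, hw0, hw'⟩
  refine ⟨by rw [mem_preimage, pr_ex]; exact hw, hw0, fun hcon => hw' ?_⟩
  exact liftH_of (Γ := Γ k) hι hBH hcon isOpen_ball hw
    (fun N' hN' hN'o hne => h.dense hdim k hN' hN'o hne)
    (fun w' hw' => h.memB k w' hw')

theorem PlG.good (h : PlG X S B B' V G g p₀ r d Γ) (hι : IsSub ι) (hv : IsOpenEmb X O v)
    (hdim : DimLe X 2 (v '' O)ᶜ)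
    (hl : ∀ k, ∃ ρ > 0, ∃ q : Cm 3 → H, ∀ w' ∈ ball (zx p₀) ρ, LiftD O v ι (Γ k) q w') :
    ∃ (r' : ℝ) (q : Fin d → Cm 3 → H), Good S B' O v ι d g p₀ r' Γ q := by
  choose ρ hρ q hq using hl
  have e1 : ∀ᶠ w in 𝓝 (zx p₀), ∀ k, w ∈ ball (zx p₀) (ρ k) := by
    refine eventually_all.2 fun k => isOpen_ball.eventually_mem (mem_ball_self (hρ k))
  obtain ⟨r₁, hr₁, h3⟩ := Metric.eventually_nhds_iff_ball.1 e1
  set r' := min r₁ r with hr'
  have hr'0 : 0 < r' := lt_min hr₁ h.pos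
  have h' : PlG X S B B' V G g p₀ r' d Γ := h.mono hr'0 (by
    rw [dist_self, add_zero]; exact min_le_right _ _)
  have hb3 : ∀ w ∈ ball (zx p₀) r', ∀ k, w ∈ ball (zx p₀) (ρ k) := fun w hw =>
    h3 w (ball_subset_ball (min_le_left _ _) hw)
  refine ⟨r', q, hr'0, fun p hp => (h'.holg p hp).1, ?_, fun T hT => h'.dim hT,
    fun U hU hUo hne => h'.ndim hU hUo hne, fun p hp => h'.surf hp,
    fun k w hw => (h'.hol k w hw).1, fun k p hp => h'.exc k p hp,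
    fun k w hw => hq k w (hb3 w hw k), fun k N hN hNo hne => h'.dense hdim k hN hNo hne,
    fun k N hN hNo hne => ?_, fun p hp => h'.cover p hp⟩
  · intro U hU hUo
    obtain ⟨V', hV', -, hVS⟩ := h'.openU hU hUo
    exact ⟨V', hV', hVS⟩
  · exact h'.gen hι hv hdim k hNo hN (fun w hw => hq k w (hb3 w (hN hw) k)) hne

/-- the points near places which are not good are thin -/
theorem PlG.bad [T2Space Y] [CompactSpace H] [Nonempty H] [IsManifold 𝓘(ℂ, Cm 4) ω Y]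
    [IsManifold 𝓘(ℂ, Cm 3) ω H] (h : PlG X S B B' V G g p₀ r d Γ) (hB1 : StB1) (hι : IsSub ι)
    (hv : IsOpenEmb X O v) (hdim : DimLe X 2 (v '' O)ᶜ) (hLi : Lifts X O v)
    (hBH : ∀ y ∈ O, v y ∈ B ↔ y ∈ range ι) :
    Cv 1 {p | p ∈ ball p₀ r ∧ g p ∉ GS S B' O v ι} := by
  have hTcv := cv_iUnion fun k => h.lift (v := v) (O := O) (ι := ι) hB1 hι hdim hLi hBH k
  have himg := Cv.image (F := fun w : Cm 3 => (![w 1, w 2] : Cm 2)) hTcv isOpen_univ
    (subset_univ _) fun w _ => by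
      refine AnalyticAt.pi fun k => ?_
      fin_cases k
      · exact (ContinuousLinearMap.proj (R := ℂ) (φ := fun _ : Fin 3 => ℂ) 1).analyticAt w
      · exact (ContinuousLinearMap.proj (R := ℂ) (φ := fun _ : Fin 3 => ℂ) 2).analyticAt w
  refine himg.mono ?_
  rintro p ⟨hp, hyG⟩
  by_contra hcon
  apply hyG
  have hzp : zx p ∈ ball (zx p₀) r := by rw [mem_ball, dist_zx]; exact hp
  have hl : ∀ k, ∃ ρ > 0, ∃ q : Cm 3 → H, ∀ w' ∈ ball (zx p) ρ, LiftD O v ι (Γ k) q w' := by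
    intro k
    by_contra hk
    apply hcon
    refine ⟨zx p, mem_iUnion.2 ⟨k, hzp, rfl, hk⟩, ?_⟩
    ext i; fin_cases i <;> rfl
  have hd : dist p p₀ < r := hp
  obtain ⟨r', q, hG⟩ := (h.mono (p₁ := p) (r₁ := r - dist p p₀) (by linarith)
    (by linarith)).good hι hv hdim hl
  exact ⟨d, g, p, r', Γ, q, hG, rfl⟩

end Vale.Agent.P277.H335.XX
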