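import Vale.Agent.P277.H335.X.E4a
import Vale.Agent.P277.H60.X.Main

/-!
# P277, EX without regularity: `StExS`
-/

open scoped Manifold ContDiff Topology
open Vale.Agent.P272.K Vale.Agent.P285.H281.FD Set Filter Metric

set_option linter.unusedSectionVars false

noncomputable section

namespace Vale.Agent.P277.H335.XX

open Vale.Agent.P277 Vale.Agent.P277.H762 Vale.Agent.P277.T3 Vale.Agent.P277.H60.X
  Vale.Agent.P277.PH

theorem dist_lst_le (z : Cm 4) : dist (lst z) 0 ≤ dist z 0 := by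
  refine (dist_pi_le_iff dist_nonneg).2 fun i => ?_
  fin_cases i
  · exact dist_le_pi_dist z 0 2
  · exact dist_le_pi_dist z 0 3

variable {X : CSp} {S B : Set X.pt}
variable {Y H : Type} [TopologicalSpace Y] [ChartedSpace (Cm 4) Y] [TopologicalSpace H]
  [ChartedSpace (Cm 3) H]
variable {O : Set Y} {v : Y → X.pt} {ι : H → Y}

/-- the bad points are thin -/
theorem bad_thinS [T2Space Y] [CompactSpace Y] [T2Space H] [CompactSpace H] [Nonempty H]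
    [IsManifold 𝓘(ℂ, Cm 4) ω Y] [IsManifold 𝓘(ℂ, Cm 3) ω H] (hE1 : H615.X.StAdmP)
    (hE3 : H615.X.StPlX) (hB1 : StB1) (hL1 : StL1) (hι : IsSub ι) (nX : IsNormal 4 X)
    (hv : IsOpenEmb X O v) (hdim : DimLe X 2 (v '' O)ᶜ) (hLi : Lifts X O v)
    (hBe : ∀ x, ∃ σ, X.Hol σ x ∧ ∀ᶠ x' in 𝓝 x, x' ∈ B ↔ σ x' = 0)
    (hBH : ∀ y ∈ O, v y ∈ B ↔ y ∈ range ι) (hS : IsAn X univ S) (hS2 : DimLe X 2 S)
    (hSO : S ⊆ (v '' O)ᶜ) : DimLe X 1 (S \ GS S (v '' (O ∩ range ι)) O v ι) := by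
  have : Nonempty X.pt := hdim.nonempty
  set B' : Set X.pt := v '' (O ∩ range ι) with hB'
  have hScl : IsClosed S := isClosed_of_isAn hS
  have h3 : DimLe X 1 {x | x ∈ S ∧ IsSurfX X S x ∧ x ∉ GS S B' O v ι} := by
    refine dimLe_of_local ?_
    rintro x ⟨hxS, hxs, -⟩
    obtain ⟨σ, hσ, hσB⟩ := hBe x
    obtain ⟨U, hU, hUo, hxU⟩ := _root_.eventually_nhds_iff.1 ((hol_eventually hσ).and hσB)
    obtain ⟨V, G, R, d, lam, θ, N, ζ, g, hA, hxV, hVU⟩ :=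
      hE1 Y X nX O v hv hdim S hS hSO x hxs U hUo hxU
    have hT := hE3 Y H ι hι X O v hv hdim B hBH S hScl V G R d lam θ N ζ g hA σ
      (fun y hy => (hU y (hVU hy)).1) (fun y hy => (hU y (hVU hy)).2)
    have hT2 : Cv 1 {p : Cm 2 | p ∈ ball (0 : Cm 2) R ∧ g p ∉ GS S B' O v ι ∧
        ∃ (M : Cm 4 → ℂ) (e : ℕ) (r : ℝ) (Γ : Fin e → Cm 3 → X.pt),
          H615.X.PlX X S B B' V G M g e p r Γ} := by
      refine cv_of_local ?_
      rintro p ⟨-, -, M, e, r, Γ, hP⟩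
      have hPG := PlG.of hA hP
      refine ⟨ball p r, ball_mem_nhds p hPG.pos, (hPG.bad hB1 hι hv hdim hLi hBH).mono ?_⟩
      rintro q ⟨hq, -, hqG, -⟩
      exact ⟨hq, hqG⟩
    obtain ⟨Ω, a, h1, h2, h3⟩ := hT.union hT2
    refine ⟨V, hA.cov.isOpen, hxV, fun l => {p | p ∈ Ω l ∧ a l p ∈ ball (0 : Cm 2) R},
      fun l p => g (a l p), fun l => ?_, fun l p hp => ?_, ?_⟩
    · rw [isOpen_iff_mem_nhds]
      intro p hp
      filter_upwards [(h1 l).mem_nhds hp.1,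
        (h2 l p hp.1).continuousAt.eventually (isOpen_ball.mem_nhds hp.2)] with q hq hq'
        using ⟨hq, hq'⟩
    · exact HolAt.comp (hA.par _ hp.2).1 (h2 l p hp.1)
    · rintro y ⟨hyV, hyS, -, hyG⟩
      obtain ⟨-, -, hgy⟩ := hA.mem y hyV hyS
      have hyb : lst (G y) ∈ ball (0 : Cm 2) R :=
        (dist_lst_le _).trans_lt (hA.cov.maps y hyV)
      have hmem : lst (G y) ∈ {p : Cm 2 | p ∈ ball (0 : Cm 2) R ∧ ¬ ∃ (M : Cm 4 → ℂ) (e : ℕ)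
          (r : ℝ) (Γ : Fin e → Cm 3 → X.pt), H615.X.PlX X S B B' V G M g e p r Γ} ∪
          {p : Cm 2 | p ∈ ball (0 : Cm 2) R ∧ g p ∉ GS S B' O v ι ∧
        ∃ (M : Cm 4 → ℂ) (e : ℕ) (r : ℝ) (Γ : Fin e → Cm 3 → X.pt),
          H615.X.PlX X S B B' V G M g e p r Γ} := by
        by_cases hP : ∃ (M : Cm 4 → ℂ) (e : ℕ) (r : ℝ) (Γ : Fin e → Cm 3 → X.pt),
          H615.X.PlX X S B B' V G M g e (lst (G y)) r Γ
        · exact Or.inr ⟨hyb, by rw [hgy]; exact hyG, hP⟩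
        · exact Or.inl ⟨hyb, hP⟩
      obtain ⟨l, p, hp, hpy⟩ := mem_iUnion.1 (h3 hmem)
      refine mem_iUnion.2 ⟨l, p, ⟨hp, by rw [hpy]; exact hyb⟩, ?_⟩
      show g (a l p) = y
      rw [hpy, hgy]
  refine ((hL1 X S hS hS2).union h3).mono ?_
  rintro x ⟨hxS, hxG⟩
  by_cases hs : IsSurfX X S x
  · exact Or.inr ⟨hxS, hs, hxG⟩
  · exact Or.inl ⟨hxS, hs⟩

end Vale.Agent.P277.H335.XX
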