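import Vale.Agent.P277.H60.X.Thin
import Vale.Agent.P277.H615.X.Iface

/-!
# P277, EX without regularity: places of a hypersurface along a surface of a normal space
-/

open scoped Manifold ContDiff Topology
open Vale.Agent.P272.K Vale.Agent.P285.H281.FD Set Filter Metric

noncomputable section

namespace Vale.Agent.P277.H335.XX

open Vale.Agent.P277 Vale.Agent.P277.H762 Vale.Agent.P277.T3 Vale.Agent.P277.H60.X

/-- `G` are coordinates of `ℂ⁴` on the open set `V ⊆ X` (a branched covering), in which `S` is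
parametrised by `g` (`G (g p) = (0, 0, p)`), and the maps `Γ k` parametrise `B'` along `S`. -/
structure PlG (X : CSp) (S B B' V : Set X.pt) (G : X.pt → Cm 4) (g : Cm 2 → X.pt) (p₀ : Cm 2)
    (r : ℝ) (d : ℕ) (Γ : Fin d → Cm 3 → X.pt) : Prop where
  pos : 0 < r
  openV : IsOpen V
  holG : ∀ x ∈ V, ∀ i, X.Hol (fun y => G y i) x
  holg : ∀ p ∈ ball p₀ r, HolAt X g p
  memg : ∀ p ∈ ball p₀ r, g p ∈ S ∧ g p ∈ V
  Gg : ∀ p ∈ ball p₀ r, G (g p) = zz p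
  gG : ∀ x ∈ V, x ∈ S → lst (G x) ∈ ball p₀ r → g (lst (G x)) = x
  hol : ∀ k, ∀ w ∈ ball (zx p₀) r, HolAt X (Γ k) w
  memV : ∀ k, ∀ w ∈ ball (zx p₀) r, Γ k w ∈ V
  memB : ∀ k, ∀ w ∈ ball (zx p₀) r, Γ k w ∈ B
  pl : ∀ k, IsPl (fun _ => 0) (zx p₀) r (fun w => G (Γ k w))
  exc : ∀ k, ∀ p ∈ ball p₀ r, Γ k (zx p) = g p
  cover : ∀ p ∈ ball p₀ r, ∀ ε > 0, ∀ᶠ y in 𝓝 (g p), y ∈ B' → y ∉ S →
    ∃ k, ∃ w ∈ ball (zx p) ε, Γ k w = y

theorem PlG.of {X : CSp} {S B B' V : Set X.pt} {G : X.pt → Cm 4} {R : ℝ} {m : ℕ}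
    {lam : X.pt → ℂ} {θ : Cm 4 → ℂ} {N : ℕ} {ζ : Fin N → X.pt → ℂ} {g : Cm 2 → X.pt}
    (hA : H615.X.AdmP X S V G R m lam θ N ζ g) {M : Cm 4 → ℂ} {d : ℕ} {p₀ : Cm 2} {r : ℝ}
    {Γ : Fin d → Cm 3 → X.pt} (h : H615.X.PlX X S B B' V G M g d p₀ r Γ) :
    PlG X S B B' V G g p₀ r d Γ :=
  ⟨h.pos, hA.cov.isOpen, hA.cov.holo, fun p hp => (h.par p hp).1,
    fun p hp => ⟨(h.par p hp).2.1, (h.par p hp).2.2.1⟩, fun p hp => (h.par p hp).2.2.2,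
    fun x hx hxS _ => (hA.mem x hx hxS).2.2, fun k w hw => (h.hol k w hw).1,
    fun k w hw => (h.hol k w hw).2.1, fun k w hw => (h.hol k w hw).2.2,
    fun k => ⟨(h.pl k).an, fun _ _ => rfl, (h.pl k).c2, (h.pl k).c3, (h.pl k).exc⟩,
    h.exc, h.cover⟩

end Vale.Agent.P277.H335.XX
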